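import Vale.Agent.P275.H490.Defs

/-!
# The growth of the hook polynomial
-/

namespace Vale.Agent.P275.H838

open scoped BigOperators Topology
open Filter Vale.Agent.P275.H341 Vale.Agent.P275.H490

theorem sum_choose (k : ℕ) : ∑ c ∈ Finset.range k, Nat.choose c 2 = Nat.choose k 3 := by
  induction k with
  | zero => rfl
  | succ n ih => rw [Finset.sum_range_succ, ih, Nat.choose_succ_succ' n 2, add_comm]

theorem two_choose (m : ℕ) : 2 * Nat.choose m 2 + m = m * m := by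
  induction m with
  | zero => rfl
  | succ n ih =>
    rw [Nat.choose_succ_succ' n 1, Nat.choose_one_right]
    nlinarith

theorem gauss (l : ℕ) : 2 * ∑ t ∈ Finset.range l, (t + 1) = l * (l + 1) := by
  induction l with
  | zero => rfl
  | succ n ih => rw [Finset.sum_range_succ, mul_add, ih]; ring

theorem choose_fin (k : ℕ) : Nat.choose k 3 = ∑ i : Fin k, Nat.choose (k - 1 - (i : ℕ)) 2 := by
  rw [Fin.sum_univ_eq_sum_range (fun i => Nat.choose (k - 1 - i) 2) k,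
    Finset.sum_range_reflect (fun c => Nat.choose c 2) k, sum_choose]

theorem expo (k : ℕ) (lam : Fin k → ℕ) :
    2 * (Nat.choose k 3 + ∑ i : Fin k, ∑ t ∈ Finset.range (lam i + (k - 1 - i)), (t + 1))
      = ∑ i, lam i * (lam i + 1) + 2 * ∑ i : Fin k, (k - 1 - i) * (lam i + (k - 1 - i)) := by
  rw [choose_fin, ← Finset.sum_add_distrib, Finset.mul_sum, Finset.mul_sum,
    ← Finset.sum_add_distrib]
  refine Finset.sum_congr rfl fun i _ => ?_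
  obtain ⟨m, hm⟩ : ∃ m, m = k - 1 - (i : ℕ) := ⟨_, rfl⟩
  rw [← hm]
  have h1 := two_choose m
  have h2 := gauss (lam i + m)
  rw [mul_add, h2]
  nlinarith

theorem lim_inv {m : ℕ} (hm : m ≠ 0) : Tendsto (fun q : ℕ => ((q : ℂ)⁻¹) ^ m) atTop (𝓝 0) := by
  have h := (tendsto_inv_atTop_nhds_zero_nat (𝕜 := ℂ)).pow m
  rwa [zero_pow hm] at h

theorem lim_sub {a b d : ℕ} (hd : 1 ≤ d) (h : b < a) :
    Tendsto (fun q : ℕ => (((q : ℂ) ^ d) ^ a - ((q : ℂ) ^ d) ^ b) / ((q : ℂ) ^ d) ^ a)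
      atTop (𝓝 1) := by
  obtain ⟨c, rfl⟩ : ∃ c, a = b + c := ⟨a - b, by omega⟩
  have hc : d * c ≠ 0 := Nat.mul_ne_zero (by omega) (by omega)
  have h1 : Tendsto (fun q : ℕ => 1 - ((q : ℂ)⁻¹) ^ (d * c)) atTop (𝓝 1) := by
    have h2 := (lim_inv hc).const_sub 1
    rwa [sub_zero] at h2
  refine Tendsto.congr' ?_ h1
  filter_upwards [eventually_ge_atTop 1] with q hq
  have hq0 : (q : ℂ) ≠ 0 := Nat.cast_ne_zero.2 (by omega)
  have hX : (q : ℂ) ^ d ≠ 0 := pow_ne_zero _ hq0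
  rw [inv_pow, pow_mul, pow_add]
  field_simp

theorem rowSH : RowSH := by
  intro k d e hd lam hlam he
  have hmono : ∀ i j : Fin k, i ≤ j → lam j ≤ lam i := (Finset.mem_filter.1 hlam).2
  have hlt : ∀ i j : Fin k, i < j → lam j + (k - 1 - (j : ℕ)) < lam i + (k - 1 - (i : ℕ)) := by
    intro i j hij
    have h1 := hmono i j hij.le
    have h2 : (i : ℕ) < j := hij
    have h3 := j.2
    omega
  have hA : Tendsto (fun q : ℕ => ∏ i : Fin k, ∏ t ∈ Finset.range (lam i + (k - 1 - (i : ℕ))),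
      ((((q : ℂ) ^ d) ^ (t + 1) - 1) / ((q : ℂ) ^ d) ^ (t + 1))) atTop (𝓝 1) := by
    have h1 : Tendsto (fun q : ℕ => ∏ i : Fin k,
        ∏ t ∈ Finset.range (lam i + (k - 1 - (i : ℕ))),
          ((((q : ℂ) ^ d) ^ (t + 1) - 1) / ((q : ℂ) ^ d) ^ (t + 1))) atTop
        (𝓝 (∏ i : Fin k, ∏ t ∈ Finset.range (lam i + (k - 1 - (i : ℕ))), (1 : ℂ))) := by
      refine tendsto_finsetProd _ fun i _ => tendsto_finsetProd _ fun t _ => ?_
      have h2 := lim_sub hd (Nat.succ_pos t)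
      simpa only [pow_zero] using h2
    simpa only [Finset.prod_const_one] using h1
  have hB : Tendsto (fun q : ℕ => ∏ i : Fin k, ∏ j ∈ Finset.Ioi i,
      ((((q : ℂ) ^ d) ^ (lam i + (k - 1 - (i : ℕ))) - ((q : ℂ) ^ d) ^ (lam j + (k - 1 - (j : ℕ))))
        / ((q : ℂ) ^ d) ^ (lam i + (k - 1 - (i : ℕ))))) atTop (𝓝 1) := by
    have h1 : Tendsto (fun q : ℕ => ∏ i : Fin k, ∏ j ∈ Finset.Ioi i,
        ((((q : ℂ) ^ d) ^ (lam i + (k - 1 - (i : ℕ)))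
          - ((q : ℂ) ^ d) ^ (lam j + (k - 1 - (j : ℕ))))
          / ((q : ℂ) ^ d) ^ (lam i + (k - 1 - (i : ℕ))))) atTop
        (𝓝 (∏ i : Fin k, ∏ j ∈ Finset.Ioi i, (1 : ℂ))) := by
      refine tendsto_finsetProd _ fun i _ => tendsto_finsetProd _ fun j hj => ?_
      exact lim_sub hd (hlt i j (Finset.mem_Ioi.1 hj))
    simpa only [Finset.prod_const_one] using h1
  have hAB := hA.div hB one_ne_zero
  rw [div_one] at hAB
  refine Tendsto.congr' ?_ hAB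
  filter_upwards [eventually_ge_atTop 1] with q hq
  have hq0 : (q : ℂ) ≠ 0 := Nat.cast_ne_zero.2 (by omega)
  obtain ⟨X, hX⟩ : ∃ X : ℂ, X = (q : ℂ) ^ d := ⟨_, rfl⟩
  have hX0 : X ≠ 0 := by rw [hX]; exact pow_ne_zero _ hq0
  simp only [Pi.div_apply]
  rw [← hX]
  simp only [Finset.prod_div_distrib, Finset.prod_const, Finset.prod_pow_eq_pow_sum]
  unfold hk
  obtain ⟨N, hN⟩ : ∃ N : ℂ, N = ∏ i : Fin k,
    ∏ t ∈ Finset.range (lam i + (k - 1 - (i : ℕ))), (X ^ (t + 1) - 1) := ⟨_, rfl⟩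
  obtain ⟨D, hD⟩ : ∃ D : ℂ, D = ∏ i : Fin k, ∏ j ∈ Finset.Ioi i,
    (X ^ (lam i + (k - 1 - (i : ℕ))) - X ^ (lam j + (k - 1 - (j : ℕ)))) := ⟨_, rfl⟩
  rw [← hN, ← hD]
  have hcard : ∏ i : Fin k, (X ^ (lam i + (k - 1 - (i : ℕ)))) ^ (Finset.Ioi i).card
      = X ^ ∑ i : Fin k, (k - 1 - (i : ℕ)) * (lam i + (k - 1 - (i : ℕ))) := by
    rw [← Finset.prod_pow_eq_pow_sum]
    refine Finset.prod_congr rfl fun i _ => ?_
    rw [Fin.card_Ioi, ← pow_mul, mul_comm]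
  rw [hcard]
  obtain ⟨S1, hS1⟩ : ∃ S1 : ℕ, S1 = ∑ i : Fin k,
    ∑ t ∈ Finset.range (lam i + (k - 1 - (i : ℕ))), (t + 1) := ⟨_, rfl⟩
  obtain ⟨S2, hS2⟩ : ∃ S2 : ℕ, S2 = ∑ i : Fin k,
    (k - 1 - (i : ℕ)) * (lam i + (k - 1 - (i : ℕ))) := ⟨_, rfl⟩
  have hE := expo k lam
  rw [← hS1, ← hS2] at hE
  rw [← hS1, ← hS2]
  have hE2 : d * (Nat.choose k 3 + S1) = e + d * S2 := by
    have h1 : 2 * (d * (Nat.choose k 3 + S1)) = 2 * (e + d * S2) := by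
      rw [mul_add 2 e, he]
      calc 2 * (d * (Nat.choose k 3 + S1)) = d * (2 * (Nat.choose k 3 + S1)) := by ring
        _ = _ := by rw [hE]; ring
    omega
  have hE3 : X ^ Nat.choose k 3 * X ^ S1 = (q : ℂ) ^ e * X ^ S2 := by
    rw [← pow_add, hX, ← pow_mul, hE2, pow_add, pow_mul]
  have hq1 : (q : ℂ) ^ e ≠ 0 := pow_ne_zero _ hq0
  have hE4 : X ^ Nat.choose k 3 / (q : ℂ) ^ e = X ^ S2 / X ^ S1 := by
    rw [div_eq_div_iff hq1 (pow_ne_zero _ hX0), hE3]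
    ring
  calc N / X ^ S1 / (D / X ^ S2) = (X ^ S2 / X ^ S1) * (N / D) := by
        rw [div_div_div_eq, div_mul_div_comm, mul_comm N]
    _ = (X ^ Nat.choose k 3 / (q : ℂ) ^ e) * (N / D) := by rw [hE4]
    _ = X ^ Nat.choose k 3 * N / D / (q : ℂ) ^ e := by ring

end Vale.Agent.P275.H838
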